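import Crest.Agent.N067.M.Defs
import Crest.Agent.N067.M.FlatU
import Crest.Agent.N067.M.Wedge0
import Crest.Agent.N067.V.Phi3

-- ▼ part N067/X0/Geo
section

/-!
# Row 67, block X0 (helper18): geometry of the lens `Core`
-/

set_option autoImplicit false

open MeasureTheory Laplacian InnerProductSpace Topology Filter Set Metric
open scoped RealInnerProductSpace Gradient ContDiff

namespace Crest.Agent.N067.M.X0

open Crest.Agent.R077

noncomputable section

variable {n : ℕ} {β : Bo} {ν w om : EE n}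

/-- radius of the cap of the lens -/
def ga (β : Bo) : ℝ := 3 + β.η - β.h
/-- `cos u₁`: the directions with `⟪om, ν⟫ ≤ cos u₁` are the ball sector -/
def cu1 (β : Bo) : ℝ := (ga β ^ 2 - 9 - β.η ^ 2) / (6 * β.η)
/-- `cos u₀`: the directions with `cos u₀ ≤ ⟪om, ν⟫` are the cap sector -/
def cu0 (β : Bo) : ℝ := (ga β ^ 2 + 9 - β.η ^ 2) / (6 * ga β)
/-- tangential part -/
def tan (ν a : EE n) : EE n := a - ⟪a, ν⟫ • ν

theorem ga_ge (β : Bo) : 3 < ga β := by
  have := β.h1; have := β.η0; rw [ga]; linarith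

theorem ga_le (β : Bo) : ga β ≤ 3 + β.η := by
  have := β.h0; rw [ga]; linarith

theorem one_sub_cu0 (β : Bo) : 1 - cu0 β = β.h * (2 * β.η - β.h) / (6 * ga β) := by
  have := ga_ge β
  rw [cu0, eq_div_iff (by positivity), sub_mul, div_mul_cancel₀ _ (by positivity), ga]; ring

theorem one_sub_cu1 (β : Bo) :
    1 - cu1 β = β.h * (6 + 2 * β.η - β.h) / (6 * β.η) := by
  have := β.η0
  rw [cu1, eq_div_iff (by positivity), sub_mul, div_mul_cancel₀ _ (by positivity), ga]; ring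

theorem cu0_lt (β : Bo) : β.η * β.h / 19 ≤ 1 - cu0 β := by
  have := ga_ge β; have := ga_le β; have := β.η0; have := β.η1; have := β.h0; have := β.h1
  have h : 0 < β.η * β.h := by positivity
  rw [one_sub_cu0, div_le_div_iff₀ (by positivity) (by positivity)]
  nlinarith

theorem cu1_ge (β : Bo) : 1 - cu1 β ≤ 2 / 10000 := by
  have := β.η0; have := β.η1; have := β.h0; have := β.h1
  rw [one_sub_cu1, div_le_iff₀ (by positivity)]
  nlinarith

theorem cu1_lt (β : Bo) : β.h / β.η ≤ 1 - cu1 β := by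
  have := β.η0; have := β.η1; have := β.h0; have := β.h1
  rw [one_sub_cu1, div_le_div_iff₀ (by positivity) (by positivity)]
  have h : 0 < β.η * β.h := by positivity
  nlinarith

theorem norm_add3_sq (hν : ‖ν‖ = 1) (w : EE n) :
    ‖w + (3 : ℝ) • ν‖ ^ 2 = ‖w‖ ^ 2 + 6 * ⟪w, ν⟫ + 9 := by
  rw [norm_add_sq_real, real_inner_smul_right, norm_smul, hν]; norm_num; ring

theorem core_iff (hν : ‖ν‖ = 1) :
    w ∈ Core β ν ↔ ‖w‖ ≤ β.η ∧ ‖w‖ ^ 2 + 6 * ⟪w, ν⟫ + 9 ≤ ga β ^ 2 := by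
  rw [← norm_add3_sq hν, sq_le_sq₀ (norm_nonneg _) (by linarith [ga_ge β])]; rfl

theorem core_eq (β : Bo) (ν : EE n) :
    Core β ν = closedBall 0 β.η ∩ closedBall (-((3 : ℝ) • ν)) (ga β) := by
  ext w; simp [Core, ga, dist_eq_norm]

theorem convex_core (β : Bo) (ν : EE n) : Convex ℝ (Core β ν) :=
  core_eq β ν ▸ (convex_closedBall _ _).inter (convex_closedBall _ _)

theorem isCompact_core (β : Bo) (ν : EE n) : IsCompact (Core β ν) :=
  core_eq β ν ▸ (isCompact_closedBall _ _).inter_right isClosed_closedBall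

theorem ball_mem_iff (hν : ‖ν‖ = 1) (hom : ‖om‖ = 1) :
    β.η • om ∈ Core β ν ↔ ⟪om, ν⟫ ≤ cu1 β := by
  have := β.η0
  rw [core_iff hν, norm_smul, hom, real_inner_smul_left, Real.norm_of_nonneg this.le, cu1,
    le_div_iff₀ (by positivity)]
  constructor
  · exact fun h => by linarith [h.2]
  · exact fun h => ⟨by linarith, by linarith⟩

theorem neg_mem (β : Bo) (hν : ‖ν‖ = 1) : β.η • -ν ∈ Core β ν :=
  (ball_mem_iff hν (by simpa using hν)).2 (by
    rw [inner_neg_left, real_inner_self_eq_norm_sq, hν]; linarith [cu1_ge β])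

theorem cap_mem_iff (hν : ‖ν‖ = 1) (hom : ‖om‖ = 1) :
    ga β • om - (3 : ℝ) • ν ∈ Core β ν ↔ cu0 β ≤ ⟪om, ν⟫ := by
  have := ga_ge β
  have h1 : ‖ga β • om - (3 : ℝ) • ν‖ ^ 2 = ga β ^ 2 - 6 * ga β * ⟪om, ν⟫ + 9 := by
    rw [norm_sub_sq_real, real_inner_smul_right, real_inner_smul_left, norm_smul, norm_smul, hν,
      hom, Real.norm_of_nonneg (by linarith)]; norm_num; ring
  rw [Core, mem_ofPred_eq, sub_add_cancel, norm_smul, hom, Real.norm_of_nonneg (by linarith),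
    ← sq_le_sq₀ (norm_nonneg _) β.η0.le, h1, cu0, div_le_iff₀ (by positivity)]
  constructor
  · exact fun h => by linarith [h.1]
  · exact fun h => ⟨by linarith, by rw [ga, mul_one]⟩

theorem inner_tan (hν : ‖ν‖ = 1) (a : EE n) : ⟪tan ν a, ν⟫ = 0 := by
  rw [tan, inner_sub_left, real_inner_smul_left, real_inner_self_eq_norm_sq, hν]; ring

theorem inner_tan_tan (hν : ‖ν‖ = 1) (a b : EE n) :
    ⟪tan ν a, tan ν b⟫ = ⟪a, b⟫ - ⟪a, ν⟫ * ⟪b, ν⟫ := by
  rw [tan, tan]
  simp only [inner_sub_left, inner_sub_right, real_inner_smul_left, real_inner_smul_right,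
    real_inner_self_eq_norm_sq, hν, real_inner_comm ν b]
  ring

theorem norm_tan_sq (hν : ‖ν‖ = 1) (a : EE n) : ‖tan ν a‖ ^ 2 = ‖a‖ ^ 2 - ⟪a, ν⟫ ^ 2 := by
  rw [← real_inner_self_eq_norm_sq, inner_tan_tan hν, real_inner_self_eq_norm_sq]; ring

theorem norm_tan_le (hν : ‖ν‖ = 1) (a : EE n) : ‖tan ν a‖ ≤ ‖a‖ := by
  rw [← sq_le_sq₀ (norm_nonneg _) (norm_nonneg _), norm_tan_sq hν]; nlinarith [sq_nonneg ⟪a, ν⟫]

theorem add_tan (ν a : EE n) : ⟪a, ν⟫ • ν + tan ν a = a := by rw [tan]; abel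

theorem tan_tan (hν : ‖ν‖ = 1) (a : EE n) : tan ν (tan ν a) = tan ν a := by
  rw [tan, inner_tan hν, zero_smul, sub_zero]

theorem norm_comb_sq (hν : ‖ν‖ = 1) (g : ℝ) (τ : EE n) :
    ‖g • ν + tan ν τ‖ ^ 2 = g ^ 2 + ‖tan ν τ‖ ^ 2 := by
  rw [norm_add_sq_real, real_inner_smul_left, real_inner_comm, inner_tan hν, norm_smul, hν]
  simp

theorem inner_comb (hν : ‖ν‖ = 1) (g : ℝ) (τ : EE n) : ⟪g • ν + tan ν τ, ν⟫ = g := by
  rw [inner_add_left, inner_tan hν, real_inner_smul_left, real_inner_self_eq_norm_sq, hν]; ring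

/-- the parameters `(g, τ)` of the points of the lens; they do not depend on the axis -/
def Par (β : Bo) (n : ℕ) : Set (ℝ × EE n) :=
  {q | q.1 ^ 2 + ‖q.2‖ ^ 2 ≤ β.η ^ 2 ∧ q.1 ^ 2 + ‖q.2‖ ^ 2 + 6 * q.1 + 9 ≤ ga β ^ 2}

theorem Par.mem {q : ℝ × EE n} (h : q ∈ Par β n) (hν : ‖ν‖ = 1) :
    q.1 • ν + tan ν q.2 ∈ Core β ν := by
  have h1 := pow_le_pow_left₀ (norm_nonneg _) (norm_tan_le hν q.2) 2
  rw [core_iff hν, ← sq_le_sq₀ (norm_nonneg _) β.η0.le, norm_comb_sq hν, inner_comb hν]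
  exact ⟨by linarith [h.1], by linarith [h.2]⟩

theorem par_of_mem (hν : ‖ν‖ = 1) (h : w ∈ Core β ν) : (⟪w, ν⟫, tan ν w) ∈ Par β n := by
  rw [core_iff hν, ← sq_le_sq₀ (norm_nonneg _) β.η0.le] at h
  simp only [Par, mem_ofPred_eq, norm_tan_sq hν]
  exact ⟨by linarith [h.1], by linarith [h.2]⟩

theorem isCompact_par (β : Bo) (n : ℕ) : IsCompact (Par β n) := by
  refine (isCompact_closedBall (0 : ℝ × EE n) β.η).of_isClosed_subset
    (IsClosed.and (isClosed_le (by fun_prop) (by fun_prop)) (isClosed_le (by fun_prop) (by fun_prop)))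
    fun q hq => mem_closedBall_zero_iff.2 (max_le ?_ ?_)
  · rw [← sq_le_sq₀ (norm_nonneg _) β.η0.le, Real.norm_eq_abs, sq_abs]
    linarith [hq.1, sq_nonneg ‖q.2‖]
  · rw [← sq_le_sq₀ (norm_nonneg _) β.η0.le]
    linarith [hq.1, sq_nonneg q.1]

/-- `om` is in the normal cone of the lens at `w` -/
structure Cone (β : Bo) (ν w om : EE n) : Prop where
  ax : ‖ν‖ = 1
  mem : w ∈ Core β ν
  unit : ‖om‖ = 1
  le : ∀ w' ∈ Core β ν, ⟪om, w' - w⟫ ≤ 0

theorem eq_of_le_inner {a c : EE n} {ρ : ℝ} (hom : ‖om‖ = 1) (h1 : ‖a - c‖ ≤ ρ)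
    (h2 : ρ ≤ ⟪om, a - c⟫) : a = c + ρ • om := by
  have h0 : 0 ≤ ρ := (norm_nonneg _).trans h1
  have h3 : ‖(a - c) - ρ • om‖ ^ 2 ≤ 0 := by
    rw [norm_sub_sq_real, real_inner_smul_right, norm_smul, hom, real_inner_comm,
      Real.norm_of_nonneg h0]
    nlinarith [pow_le_pow_left₀ (norm_nonneg _) h1 2]
  have h4 := norm_eq_zero.1 (pow_eq_zero_iff two_ne_zero |>.1 (h3.antisymm (sq_nonneg _)))
  rw [sub_eq_zero, sub_eq_iff_eq_add'] at h4
  exact h4

theorem Cone.bl (h : Cone β ν w om) (hc : ⟪om, ν⟫ ≤ cu1 β) : w = β.η • om := by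
  have h1 := h.le _ ((ball_mem_iff h.ax h.unit).2 hc)
  rw [inner_sub_right, real_inner_smul_right, real_inner_self_eq_norm_sq, h.unit] at h1
  simpa using eq_of_le_inner (a := w) (c := 0) h.unit (by simpa using h.mem.1)
    (by rw [sub_zero]; linarith)

theorem Cone.cap (h : Cone β ν w om) (hc : cu0 β ≤ ⟪om, ν⟫) :
    w = ga β • om - (3 : ℝ) • ν := by
  have h1 := h.le _ ((cap_mem_iff h.ax h.unit).2 hc)
  rw [sub_sub, inner_sub_right, real_inner_smul_right, real_inner_self_eq_norm_sq, h.unit,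
    add_comm] at h1
  have h2 := eq_of_le_inner (a := w) (c := -((3 : ℝ) • ν)) (ρ := ga β) h.unit
    (by simpa [ga] using h.mem.2) (by rw [sub_neg_eq_add]; linarith)
  rw [h2]; abel

/-- a point which minimises a linear form on the intersection of two balls and is interior to one
of them minimises it on the other one -/
theorem cone_inter {A B : Set (EE n)} (hB : Convex ℝ B) (hA : A ∈ 𝓝 w) (hw : w ∈ B)
    (h : ∀ w' ∈ A ∩ B, ⟪om, w' - w⟫ ≤ 0) : ∀ w' ∈ B, ⟪om, w' - w⟫ ≤ 0 := fun w' hw' => by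
  have h1 : Tendsto (fun s : ℝ => w + s • (w' - w)) (𝓝[>] 0) (𝓝 w) :=
    (Continuous.tendsto' (by fun_prop) 0 w (by simp)).mono_left nhdsWithin_le_nhds
  obtain ⟨s, h2, h3⟩ := ((h1.eventually hA).and (Ioo_mem_nhdsGT zero_lt_one)).exists
  have h4 := h _ ⟨h2, hB.add_smul_sub_mem hw hw' ⟨h3.1.le, h3.2.le⟩⟩
  rw [add_sub_cancel_left, real_inner_smul_right] at h4
  by_contra h5
  exact absurd h4 (not_le.2 (mul_pos h3.1 (not_le.1 h5)))

theorem Cone.par (h : Cone β ν w om) : ‖tan ν w‖ • tan ν om = ‖tan ν om‖ • tan ν w := by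
  by_cases h0 : tan ν om = 0
  · simp [h0]
  have h1 := norm_pos_iff.2 h0
  have h2 : (⟪w, ν⟫, (‖tan ν w‖ / ‖tan ν om‖) • tan ν om) ∈ Par β n := by
    have := par_of_mem h.ax h.mem
    simp only [Par, mem_ofPred_eq, norm_smul, norm_div, norm_norm, div_mul_cancel₀ _ h1.ne'] at this ⊢
    exact this
  have h3 := h.le _ (Par.mem h2 h.ax)
  have h4 : tan ν ((‖tan ν w‖ / ‖tan ν om‖) • tan ν om) = (‖tan ν w‖ / ‖tan ν om‖) • tan ν om := by
    rw [tan, real_inner_smul_left, inner_tan h.ax]; simp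
  have h5 : ∀ a, ⟪om, tan ν a⟫ = ⟪tan ν om, tan ν a⟫ := fun a => by
    rw [inner_tan_tan h.ax, tan, inner_sub_right, real_inner_smul_right]; ring
  simp only [h4] at h3
  rw [show ∀ a : EE n, ⟪w, ν⟫ • ν + a - w = a - tan ν w from fun a => by rw [tan]; abel,
    inner_sub_right, real_inner_smul_right, h5, h5,
    real_inner_self_eq_norm_sq, sq, ← mul_assoc, div_mul_cancel₀ _ h1.ne'] at h3
  exact inner_eq_norm_mul_iff_real.1 ((real_inner_le_norm _ _).antisymm (by linarith))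

/-- on the rim -/
structure Rim (β : Bo) (ν w om : EE n) : Prop where
  n1 : ‖w‖ = β.η
  n2 : ‖w + (3 : ℝ) • ν‖ = ga β
  ge : cu1 β ≤ ⟪om, ν⟫
  le : ⟪om, ν⟫ ≤ cu0 β
  ax : ⟪w, ν⟫ = β.η * cu1 β

/-- **trichotomy**: open ball sector, open cap sector, rim -/
theorem Cone.tri (h : Cone β ν w om) : (⟪om, ν⟫ < cu1 β ∧ w = β.η • om) ∨
    (cu0 β < ⟪om, ν⟫ ∧ w = ga β • om - (3 : ℝ) • ν) ∨ Rim β ν w om := by
  rcases lt_or_ge ⟪om, ν⟫ (cu1 β) with h1 | h1
  · exact Or.inl ⟨h1, h.bl h1.le⟩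
  rcases lt_or_ge (cu0 β) ⟪om, ν⟫ with h2 | h2
  · exact Or.inr (Or.inl ⟨h2, h.cap h2.le⟩)
  have hη := β.η0
  have hg := ga_ge β
  have hle := h.le
  rw [core_eq] at hle
  have a1 : ‖w + (3 : ℝ) • ν‖ = ga β := by
    refine h.mem.2.antisymm (not_lt.1 fun h3 => ?_)
    have h4 := cone_inter (convex_closedBall 0 β.η) (closedBall_mem_nhds_of_mem
      (show w ∈ ball (-((3 : ℝ) • ν)) (ga β) by simpa [dist_eq_norm, ga] using h3))
      (by simpa using h.mem.1) (fun w' hw' => hle w' ⟨hw'.2, hw'.1⟩) (β.η • om)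
      (by simp [norm_smul, h.unit, abs_of_pos hη])
    rw [inner_sub_right, real_inner_smul_right, real_inner_self_eq_norm_sq, h.unit] at h4
    have h5 := eq_of_le_inner (a := w) (c := 0) h.unit (by simpa using h.mem.1)
      (by rw [sub_zero]; linarith)
    have h6 := pow_lt_pow_left₀ h3 (norm_nonneg _) two_ne_zero
    rw [norm_add3_sq h.ax, h5, zero_add, norm_smul, h.unit, real_inner_smul_left,
      Real.norm_of_nonneg hη.le] at h6
    rw [cu1, div_le_iff₀ (by positivity)] at h1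
    change _ < ga β ^ 2 at h6
    linarith
  have a2 : ‖w‖ = β.η := by
    refine h.mem.1.antisymm (not_lt.1 fun h3 => ?_)
    have h4 := cone_inter (convex_closedBall (-((3 : ℝ) • ν)) (ga β)) (closedBall_mem_nhds_of_mem
      (show w ∈ ball 0 β.η by simpa using h3)) (by simpa [dist_eq_norm] using a1.le) hle
      (ga β • om - (3 : ℝ) • ν) (by simp [dist_eq_norm, norm_smul, h.unit, abs_of_pos (by linarith : 0 < ga β)])
    rw [sub_sub, inner_sub_right, real_inner_smul_right, real_inner_self_eq_norm_sq, h.unit,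
      add_comm] at h4
    have h5 := eq_of_le_inner (a := w) (c := -((3 : ℝ) • ν)) (ρ := ga β) h.unit
      (by simpa using a1.le) (by rw [sub_neg_eq_add]; linarith)
    have h6 := pow_lt_pow_left₀ h3 (norm_nonneg _) two_ne_zero
    rw [h5, norm_add_sq_real, inner_neg_left, real_inner_smul_left, real_inner_smul_right,
      norm_neg, norm_smul, norm_smul, h.unit, h.ax, Real.norm_of_nonneg (by linarith : 0 ≤ ga β),
      real_inner_comm] at h6
    rw [cu0, le_div_iff₀ (by positivity)] at h2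
    norm_num at h6
    linarith
  refine Or.inr (Or.inr ⟨a2, a1, h1, h2, ?_⟩)
  have h3 := norm_add3_sq h.ax w
  rw [a1, a2] at h3
  rw [cu1, h3]; field_simp; ring

/-- the field `cap` of `Ct` -/
theorem Cone.cap' (h : Cone β ν w om) (hc : ‖om - ν‖ < √(β.η * β.h) / 10) :
    cu0 β < ⟪om, ν⟫ ∧ w = (3 + β.η - β.h) • om - (3 : ℝ) • ν := by
  have h0 : 0 < β.η * β.h := mul_pos β.η0 β.h0
  have h1 := pow_lt_pow_left₀ hc (norm_nonneg _) two_ne_zero
  rw [norm_sub_sq_real, h.unit, h.ax, div_pow, Real.sq_sqrt h0.le] at h1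
  have h2 : cu0 β < ⟪om, ν⟫ := by linarith [cu0_lt β]
  exact ⟨h2, h.cap h2.le⟩

/-- transversality -/
theorem Cone.trans (h : Cone β ν w om) : -(β.η * ⟪om, ν⟫) ≤ ⟪om, w⟫ := by
  have h1 := h.le _ (neg_mem β h.ax)
  rw [inner_sub_right, real_inner_smul_right, inner_neg_right] at h1
  linarith

/-- the field `key` of `Ct` -/
theorem Cone.key (h : Cone β ν w om) : β.η * (1 - ⟪om, ν⟫) ≤ ⟪w, om - ν⟫ := by
  have hη := β.η0
  have hc : ⟪om, ν⟫ ≤ 1 := by simpa [h.unit, h.ax] using real_inner_le_norm om ν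
  rw [inner_sub_right]
  rcases h.tri with h1 | h1 | h1
  · rw [h1.2, real_inner_smul_left, real_inner_smul_left, real_inner_self_eq_norm_sq, h.unit]
    linarith
  · rw [h1.2]
    simp only [inner_sub_left, real_inner_smul_left, real_inner_self_eq_norm_sq, h.unit, h.ax,
      real_inner_comm om ν]
    nlinarith [ga_ge β, β.η1]
  · have h2 := inner_eq_norm_mul_iff_real.2 h.par
    have h3 := norm_tan_sq h.ax w
    have h4 := norm_tan_sq h.ax om
    have h5 := cu1_ge β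
    rw [inner_tan_tan h.ax, real_inner_comm w om, h1.ax] at h2
    rw [h1.n1, h1.ax] at h3
    rw [h.unit] at h4
    rw [h1.ax]
    have h6 : β.η * ((1 - ⟪om, ν⟫) * (1 + cu1 β)) ≤ ‖tan ν om‖ * ‖tan ν w‖ := by
      rw [← sq_le_sq₀ (mul_nonneg hη.le (mul_nonneg (by linarith) (by linarith))) (by positivity),
        mul_pow ‖_‖, h3, h4]
      have h7 : 0 ≤ β.η ^ 2 * ((1 - ⟪om, ν⟫) * (1 + cu1 β)) * (⟪om, ν⟫ - cu1 β) :=
        mul_nonneg (mul_nonneg (sq_nonneg _) (mul_nonneg (by linarith) (by linarith)))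
          (by linarith [h1.ge])
      nlinarith
    nlinarith

end

end Crest.Agent.N067.M.X0
end

-- ▼ part N067/X0/Fit
section

/-!
# Row 67, block X0 (helper18): `Fit`, `rt`, contacts
-/

set_option autoImplicit false

open MeasureTheory Laplacian InnerProductSpace Topology Filter Set Metric
open scoped RealInnerProductSpace Gradient ContDiff

namespace Crest.Agent.N067.M.X0

open Crest.Agent.R077 Crest.Agent.N067.V

noncomputable section

variable {n : ℕ} {β : Bo} {v : EE n → ℝ} {x z w om p : EE n} {r y ρm : ℝ}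

/-- the standing hypotheses at `(x, r)` -/
structure Sm (v : EE n → ℝ) (x : EE n) (r : ℝ) : Prop where
  sol : Sol v
  N : 1 / 2 ≤ NN v x
  d : 8 * |dd v x| + 8 ≤ r

theorem Sm.Npos (h : Sm v x r) : 0 < NN v x := by linarith [h.N]
theorem Sm.ax (h : Sm v x r) : ‖nu v x‖ = 1 := Wd.norm_nu h.Npos
theorem Sm.r8 (h : Sm v x r) : 8 ≤ r := by linarith [h.d, abs_nonneg (dd v x)]
theorem Sm.lt (h : Sm v x r) : |dd v x| < r := by linarith [h.d, abs_nonneg (dd v x)]
theorem Sm.L1 (h : Sm v x r) : 7 / 8 * r + 1 ≤ r - dd v x := by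
  linarith [h.d, le_abs_self (dd v x)]
theorem Sm.L2 (h : Sm v x r) : r - dd v x ≤ 9 / 8 * r := by
  linarith [h.d, neg_abs_le (dd v x)]
theorem Sm.Lpos (h : Sm v x r) : 0 < r - dd v x := by linarith [h.L1, h.r8]
theorem Sm.eta (h : Sm v x r) (β : Bo) : 0 ≤ β.η * r ∧ β.η * r ≤ r / 100 :=
  ⟨mul_nonneg β.η0.le (by linarith [h.r8]), by nlinarith [β.η1, h.r8]⟩
theorem Sm.mono (h : Sm v x r) {r' : ℝ} (hr : r ≤ r') : Sm v x r' := ⟨h.sol, h.N, h.d.trans hr⟩

theorem smul_nu (h : 0 < NN v x) : NN v x • nu v x = nn v x := by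
  rw [nu, smul_smul, mul_inv_cancel₀ h.ne', one_smul]

theorem gp_eq (N a : ℝ) {L : ℝ} (hL : L ≠ 0) : gp N L (L - a) = N * (a - a ^ 2 / (2 * L)) := by
  unfold gp; field_simp; ring

/-- the paraboloid of a tangent ball -/
theorem gp_ball (hN : 0 < NN v x) {L : ℝ} (hL : L ≠ 0) (p : EE n) :
    dd v x + gp (NN v x) L ‖p - L • nu v x‖ =
      dd v (x + p) + (tay (dd v) p x - NN v x / L / 2 * ‖p‖ ^ 2) := by
  rw [tay, ← inner_grad, show ∇ (dd v) x = NN v x • nu v x from (smul_nu hN).symm,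
    real_inner_smul_left, gp, norm_sub_sq_real, real_inner_smul_right, norm_smul, Wd.norm_nu hN,
    real_inner_comm, mul_one, Real.norm_eq_abs, sq_abs]
  field_simp; ring

theorem sub_cen (v : EE n → ℝ) (x p w : EE n) (r : ℝ) :
    x + p - cen v x r w = p - (r - dd v x) • nu v x - r • w := by rw [cen]; abel

/-- the body is inside the ball -/
theorem PP_le_ball (hN : 0 < NN v x) (hr : |dd v x| < r) (hw : w ∈ Core β (nu v x)) (p : EE n) :
    PP β v x r w (x + p) ≤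
      dd v (x + p) + (tay (dd v) p x - NN v x / (r - dd v x) / 2 * ‖p‖ ^ 2) := by
  have hL : 0 < r - dd v x := by linarith [le_abs_self (dd v x)]
  have h0 : 0 ≤ r := (abs_nonneg _).trans hr.le
  rw [← gp_ball hN hL.ne', PP, sub_cen]
  refine add_le_add_right (Wd.gp_anti hN.le hL (norm_nonneg _) ?_) _
  have h1 := norm_add_le (p - (r - dd v x) • nu v x - r • w) (r • w)
  rw [sub_add_cancel, norm_smul, Real.norm_of_nonneg h0] at h1
  nlinarith [hw.1]

theorem fit_of_phi (hv : Sol v) (hN : 0 < NN v x) (hr : |dd v x| < r)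
    (h : phi (dd v) x * (r - dd v x) ≤ NN v x) : Fit β v x r := fun w hw z => by
  have hL : 0 < r - dd v x := by linarith [le_abs_self (dd v x)]
  have h1 := PP_le_ball hN hr hw (z - x)
  have h2 := tay_le hv (z - x) x
  have h3 := mul_le_mul_of_nonneg_right ((le_div_iff₀ hL).2 h) (sq_nonneg ‖z - x‖)
  rw [add_sub_cancel] at h1
  linarith

/-- in the ball sector the body is the ball -/
theorem PP_sector (hN : 0 < NN v x) (hr : |dd v x| < r) (hom : ‖om‖ = 1) (hy : β.η * r ≤ y)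
    (hp : p - (r - dd v x) • nu v x = y • om) : PP β v x r (β.η • om) (x + p) =
      dd v (x + p) + (tay (dd v) p x - NN v x / (r - dd v x) / 2 * ‖p‖ ^ 2) := by
  have hL : 0 < r - dd v x := by linarith [le_abs_self (dd v x)]
  have h0 : 0 ≤ β.η * r := mul_nonneg β.η0.le ((abs_nonneg _).trans hr.le)
  rw [← gp_ball hN hL.ne', PP, sub_cen, hp, smul_smul, ← sub_smul, norm_smul, norm_smul, hom,
    Real.norm_of_nonneg (by linarith), Real.norm_of_nonneg (by linarith)]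
  congr 2; ring

/-- a chord in the ball sector -/
def Sec (β : Bo) (v : EE n → ℝ) (x : EE n) (r : ℝ) (p : EE n) : Prop :=
  β.η * r ≤ ‖p - (r - dd v x) • nu v x‖ ∧
    ⟪p - (r - dd v x) • nu v x, nu v x⟫ ≤ cu1 β * ‖p - (r - dd v x) • nu v x‖

theorem Sec.PP (h : Sec β v x r p) (hN : 0 < NN v x) (hr : |dd v x| < r) :
    ∃ w ∈ Core β (nu v x), PP β v x r w (x + p) =
      dd v (x + p) + (tay (dd v) p x - NN v x / (r - dd v x) / 2 * ‖p‖ ^ 2) := by
  have h0 : 0 < ‖p - (r - dd v x) • nu v x‖ :=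
    (mul_pos β.η0 ((abs_nonneg _).trans_lt hr)).trans_le h.1
  have h1 : ‖‖p - (r - dd v x) • nu v x‖⁻¹ • (p - (r - dd v x) • nu v x)‖ = 1 := by
    rw [norm_smul, norm_inv, norm_norm, inv_mul_cancel₀ h0.ne']
  refine ⟨_, (ball_mem_iff (Wd.norm_nu hN) h1).2 ?_, PP_sector hN hr h1 h.1
    (by rw [smul_smul, mul_inv_cancel₀ h0.ne', one_smul])⟩
  rw [real_inner_smul_left, inv_mul_le_iff₀ h0, mul_comm]
  exact h.2

theorem Sec.tay_le (h : Sec β v x r p) (hN : 0 < NN v x) (hr : |dd v x| < r) (hf : Fit β v x r) :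
    tay (dd v) p x ≤ NN v x / (r - dd v x) / 2 * ‖p‖ ^ 2 := by
  obtain ⟨w, hw, h1⟩ := h.PP hN hr
  linarith [hf w hw (x + p)]

theorem Sec.not_fit (h : Sec β v x r p) (hN : 0 < NN v x) (hr : |dd v x| < r)
    (hp : NN v x / (r - dd v x) < Zf (dd v) p x) : ¬ Fit β v x r := fun hf => by
  have h1 := h.tay_le hN hr hf
  have h2 : 0 < NN v x / (r - dd v x) := div_pos hN (by linarith [le_abs_self (dd v x)])
  by_cases h0 : p = 0
  · simp only [Zf, h0, norm_zero, ne_eq, OfNat.ofNat_ne_zero, not_false_eq_true, zero_pow,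
      div_zero, zero_mul] at hp
    linarith
  · have h3 := pow_pos (norm_pos_iff.2 h0) 2
    rw [Zf, div_mul_eq_mul_div, lt_div_iff₀ h3] at hp
    linarith

/-- short chords are in the ball sector -/
theorem Sm.sec (h : Sm v x r) (hp : ‖p‖ ≤ (r - dd v x) / 2) : Sec β v x r p := by
  have h1 := norm_sub_norm_le ((r - dd v x) • nu v x) p
  rw [norm_smul, h.ax, Real.norm_of_nonneg h.Lpos.le, norm_sub_rev] at h1
  refine ⟨by linarith [(h.eta β).2, h.L1, h.r8], ?_⟩
  have h2 : ⟪p, nu v x⟫ ≤ ‖p‖ := by simpa [h.ax] using real_inner_le_norm p (nu v x)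
  rw [inner_sub_left, real_inner_smul_left, real_inner_self_eq_norm_sq, h.ax]
  have h3 : 0 ≤ cu1 β * ‖p - (r - dd v x) • nu v x‖ :=
    mul_nonneg (by linarith [cu1_ge β]) (norm_nonneg _)
  linarith [h.Lpos]

theorem Sm.phi_le (h : Sm v x r) (hf : Fit β v x r) :
    phi (dd v) x ≤ NN v x / (r - dd v x - β.η * r) := by
  have hL := h.Lpos
  have hL' : 0 < r - dd v x - β.η * r := by linarith [(h.eta β).2, h.L1, h.r8]
  refine (phi_le_iff h.sol (div_pos h.Npos hL').le).2 fun p => ?_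
  have h1 := hf _ (neg_mem β h.ax) (x + p)
  have h2 := gp_ball h.Npos hL'.ne' p
  rw [PP, sub_cen, show p - (r - dd v x) • nu v x - r • β.η • -nu v x =
    p - (r - dd v x - β.η * r) • nu v x by
      rw [sub_smul (r - dd v x), smul_neg, smul_neg, smul_smul, mul_comm]; abel] at h1
  set a := r - dd v x - β.η * r - ‖p - (r - dd v x - β.η * r) • nu v x‖ with ha
  rw [show ‖p - (r - dd v x - β.η * r) • nu v x‖ = r - dd v x - β.η * r - a by ring] at h1 h2
  rw [show r - dd v x - β.η * r - a + β.η * r = r - dd v x - a by ring, gp_eq _ _ hL.ne'] at h1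
  rw [gp_eq _ _ hL'.ne'] at h2
  have h3 : a ^ 2 / (2 * (r - dd v x)) ≤ a ^ 2 / (2 * (r - dd v x - β.η * r)) :=
    div_le_div_of_nonneg_left (sq_nonneg a) (by positivity) (by linarith [(h.eta β).1])
  nlinarith [h.Npos]

theorem Sm.phi_mul_le (h : Sm v x r) (hf : Fit β v x r) : phi (dd v) x * r ≤ 2 := by
  have h1 := h.phi_le hf
  have h2 := (h.eta β).2
  rw [le_div_iff₀ (by linarith [h.L1, h.r8])] at h1
  nlinarith [phi_nonneg h.sol x, NN_le_one h.sol x, h.L1, h.r8]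

/-! ### `rt` -/

theorem bdd_rt (β : Bo) (v : EE n → ℝ) (ρm : ℝ) (x : EE n) :
    BddBelow ({r | |dd v x| < r ∧ ¬ Fit β v x r} ∪ {ρm}) := ⟨min 0 ρm, by
  rintro s (hs | hs)
  · exact (min_le_left _ _).trans ((abs_nonneg _).trans hs.1.le)
  · exact (min_le_right _ _).trans_eq hs.symm⟩

theorem rt_le_rm (β : Bo) (v : EE n → ℝ) (ρm : ℝ) (x : EE n) : rt β v ρm x ≤ ρm :=
  csInf_le (bdd_rt β v ρm x) (Or.inr rfl)

theorem le_rt {a : ℝ} (h1 : a ≤ ρm) (h2 : ∀ r, |dd v x| < r → r < a → Fit β v x r) :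
    a ≤ rt β v ρm x := le_csInf ⟨ρm, Or.inr rfl⟩ (by
  rintro s (hs | hs)
  · exact not_lt.1 fun h => hs.2 (h2 s hs.1 h)
  · exact h1.trans_eq hs.symm)

theorem continuousAt_PP (hr : r ≠ dd v x) (w z : EE n) :
    ContinuousAt (fun q : ℝ × EE n × EE n => PP β v x q.1 q.2.1 q.2.2) (r, w, z) := by
  unfold PP gp cen
  exact continuousAt_const.add (ContinuousAt.div (by fun_prop) (by fun_prop)
    (mul_ne_zero two_ne_zero (sub_ne_zero.2 hr)))

theorem fit_of_le_rt (h1 : |dd v x| < r) (h2 : r ≤ rt β v ρm x) : Fit β v x r := by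
  have h3 : ∀ s, |dd v x| < s → s < r → Fit β v x s := fun s h4 h5 =>
    of_not_not fun h => absurd (Wd.rt_le (ρm := ρm) h4 h) (not_le.2 (h5.trans_le h2))
  intro w hw z
  have h4 : Tendsto (fun s : ℝ => PP β v x s w z) (𝓝[<] r) (𝓝 (PP β v x r w z)) :=
    (ContinuousAt.comp (f := fun s : ℝ => (s, w, z))
      (continuousAt_PP ((le_abs_self _).trans_lt h1).ne' w z) (by fun_prop)).tendsto.mono_left
        nhdsWithin_le_nhds
  exact le_of_tendsto h4 (mem_of_superset (Ioo_mem_nhdsLT h1) fun s hs => h3 s hs.1 hs.2 w hw z)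

/-! ### contacts -/

/-- existence of a degenerate or a far contact -/
theorem exists_contact (h : Sm v x (rt β v ρm x)) (hρ : rt β v ρm x < ρm) :
    (∃ e, Deg v (NN v x / (rt β v ρm x - dd v x)) e x) ∨
      ∃ w ∈ Core β (nu v x), ∃ z, z ≠ x ∧ dd v z = PP β v x (rt β v ρm x) w z := by
  have hf : Fit β v x (rt β v ρm x) := fit_of_le_rt h.lt le_rfl
  obtain ⟨u, -, h1, h2⟩ := exists_seq_tendsto_sInf ⟨ρm, Or.inr rfl⟩ (bdd_rt β v ρm x)
  change Tendsto u atTop (𝓝 (rt β v ρm x)) at h1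
  set r := rt β v ρm x
  have hc : 0 < NN v x / (r - dd v x) := div_pos h.Npos h.Lpos
  have h3 : Tendsto (fun j => NN v x / (u j - dd v x)) atTop (𝓝 (NN v x / (r - dd v x))) :=
    tendsto_const_nhds.div (h1.sub_const _) h.Lpos.ne'
  have h4 : ∀ j, ∃ q : EE n × EE n, u j < ρm → q.1 ∈ Core β (nu v x) ∧
      dd v (x + q.2) < PP β v x (u j) q.1 (x + q.2) ∧ q.2 ≠ 0 ∧
      NN v x / (u j - dd v x) < Zf (dd v) q.2 x := fun j => by
    rcases h2 j with hj | hj
    · have h5 := hj.2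
      simp only [Fit, not_forall, not_le] at h5
      obtain ⟨w, hw, z, hz⟩ := h5
      have h6 := PP_le_ball h.Npos hj.1 hw (z - x)
      rw [add_sub_cancel] at h6
      have h7 : z - x ≠ 0 := fun h0 => by
        rw [h0] at h6; simp [tay] at h6; linarith
      refine ⟨(w, z - x), fun _ => ⟨hw, by simpa using hz, h7, ?_⟩⟩
      rw [Zf, div_mul_eq_mul_div, lt_div_iff₀ (pow_pos (norm_pos_iff.2 h7) 2)]
      linarith
    · exact ⟨0, fun h => absurd hj h.ne⟩
  choose q hq using h4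
  have h5 : ∀ᶠ j in atTop, u j < ρm := h1.eventually (gt_mem_nhds hρ)
  obtain ⟨⟨w, a, e⟩, ⟨hw, -, he⟩, σ, hσ, h6⟩ := ((isCompact_core β (nu v x)).prod
    ((isCompact_closedBall (0 : EE n) (8 / (NN v x / (r - dd v x)))).prod
      (isCompact_sphere (0 : EE n) 1))).tendsto_subseq'
    (x := fun j => ((q j).1, (q j).2, ‖(q j).2‖⁻¹ • (q j).2))
    ((h5.and (h3.eventually (lt_mem_nhds (half_lt_self hc)))).mono fun j hj => ⟨(hq j hj.1).1, by
      have h6 := (hj.2.trans (hq j hj.1).2.2.2).trans_le (Zf_le_div h.sol _ x)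
      rw [lt_div_iff₀ (norm_pos_iff.2 (hq j hj.1).2.2.1)] at h6
      rw [mem_closedBall_zero_iff, le_div_iff₀ hc]
      linarith, by simp [norm_smul, (hq j hj.1).2.2.1]⟩).frequently
  have h7 : Tendsto (fun j => (q (σ j)).1) atTop (𝓝 w) := (continuous_fst.tendsto _).comp h6
  have h8 : Tendsto (fun j => (q (σ j)).2) atTop (𝓝 a) :=
    (continuous_snd.fst.tendsto _).comp h6
  have h9 : Tendsto (fun j => ‖(q (σ j)).2‖⁻¹ • (q (σ j)).2) atTop (𝓝 e) :=
    (continuous_snd.snd.tendsto _).comp h6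
  have h10 := hσ.tendsto_atTop.eventually h5
  by_cases ha : a = 0
  · have hl : ∀ᶠ y in 𝓝 (0 : EE n), tay (dd v) y x ≤ NN v x / (r - dd v x) / 2 * ‖y‖ ^ 2 :=
      mem_of_superset (closedBall_mem_nhds 0 (half_pos h.Lpos)) fun y hy =>
        (h.sec (mem_closedBall_zero_iff.1 hy)).tay_le h.Npos h.lt hf
    have he' : ‖e‖ = 1 := by simpa using he
    refine Or.inl ⟨e, he', le_antisymm ?_ ?_, hl⟩
    · have b1 := ((tendsto_Zf h.sol.dd_sm x).comp (ha ▸ h8)).sub (h3.comp hσ.tendsto_atTop)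
      rw [zero_sub] at b1
      refine le_of_tendsto_of_tendsto (((hb (dd v) x).continuous₂.tendsto (e, e)).comp
        (h9.prodMk_nhds h9)) b1 (h10.mono fun j hj => ?_)
      have b2 := (hq _ hj).2.2.2
      simp only [Function.comp_apply, Function.uncurry_apply_pair, map_smul, smul_apply, smul_eq_mul]
      rw [show ‖(q (σ j)).2‖⁻¹ * (‖(q (σ j)).2‖⁻¹ * hb (dd v) x (q (σ j)).2 (q (σ j)).2) =
        hb (dd v) x (q (σ j)).2 (q (σ j)).2 / ‖(q (σ j)).2‖ ^ 2 by ring]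
      linarith
    · have b1 := hb_add_nonneg' h.sol.dd_sm hl e
      rw [he'] at b1
      linarith
  · refine Or.inr ⟨w, hw, x + a, by simpa using ha, le_antisymm ?_ (hf w hw _)⟩
    exact le_of_tendsto_of_tendsto ((h.sol.dd_sm.continuous.tendsto _).comp (h8.const_add x))
      ((continuousAt_PP (sub_pos.1 h.Lpos).ne' w (x + a)).tendsto.comp
        ((h1.comp hσ.tendsto_atTop).prodMk_nhds (h7.prodMk_nhds (h8.const_add x))))
      (h10.mono fun j hj => (hq _ hj).2.1.le)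

/-- **NDC**: no deep contact -/
theorem ndc (n : ℕ) {ε : ℝ} (hε : 0 < ε) (hε1 : ε ≤ 1) : ∃ M : ℝ, ∀ (β : Bo) (v : EE n → ℝ)
    (x w z : EE n) (r : ℝ), Sm v x r → |dd v x| ≤ ε ^ 2 / 80 * r → M ≤ r → Fit β v x r →
      w ∈ Core β (nu v x) → dd v z = PP β v x r w z →
      (1 - ε) * (r - dd v x) ≤ ‖z - cen v x r w‖ + β.η * r := by
  obtain ⟨C, hC, H⟩ := ball_dd n
  refine ⟨8 * (2 + C + 2 * C / ε ^ 2) / ε ^ 2 + 1, fun β v x w z r h hd hM hf hw he =>
    not_lt.1 fun hy => ?_⟩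
  have hε2 := pow_pos hε 2
  have hL := h.Lpos
  have hL1 := h.L1
  have hr := h.r8
  have hη := h.eta β
  have hd0 := abs_nonneg (dd v x)
  have hM' : 8 * (2 + C + 2 * C / ε ^ 2) < ε ^ 2 * r := by
    rw [← div_lt_iff₀' hε2]; linarith
  have hC2 : 0 ≤ 2 * C / ε ^ 2 := by positivity
  have hεε : ε ^ 2 * r ≤ ε * r := mul_le_mul_of_nonneg_right (by nlinarith) (by linarith)
  have hεL : 7 / 8 * (ε * r) ≤ ε * (r - dd v x) := by nlinarith
  have hεL2 : 7 / 8 * (ε ^ 2 * r) ≤ ε ^ 2 * (r - dd v x) := by nlinarith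
  set L := r - dd v x with hLd
  have h1 : ∀ z' ∈ ball (cen v x r w) (L - β.η * r - (4 * |dd v x| + 1)), 0 < v z' := fun z' hz' => by
    have a1 := hf w hw z'
    have a2 := Wd.gp_anti (y' := L - (4 * |dd v x| + 1)) h.Npos.le hL
      (add_nonneg (norm_nonneg (z' - cen v x r w)) hη.1)
      (by linarith [mem_ball_iff_norm.1 hz'])
    rw [gp_eq _ _ hL.ne'] at a2
    have a3 : (4 * |dd v x| + 1) ^ 2 / (2 * L) ≤ (4 * |dd v x| + 1) / 2 := by
      rw [div_le_div_iff₀ (by positivity) two_pos]; nlinarith [h.d]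
    have a4 : 0 < dd v z' := by
      rw [PP] at a1
      nlinarith [h.N, neg_abs_le (dd v x)]
    refine lt_of_not_ge fun a5 => ?_
    rcases a5.lt_or_eq with a5 | a5
    · linarith [h.sol.dd_lt_zero a5]
    · simp [dd, a5] at a4
  have h2 := H v h.sol _ z _ h1 (by nlinarith)
  set y := ‖z - cen v x r w‖ with hyd
  have hy0 : 0 ≤ y := norm_nonneg _
  have h3 : √(y ^ 2 + C * (L - β.η * r - (4 * |dd v x| + 1))) ≤
      y + (ε ^ 2 * L / 8 + 2 * C / ε ^ 2) := by
    refine Real.sqrt_le_iff.2 ⟨by positivity, ?_⟩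
    have a1 : C * L = 4 * (ε ^ 2 * L / 8) * (2 * C / ε ^ 2) := by field_simp; ring
    have a2 : 0 ≤ y * (ε ^ 2 * L / 8 + 2 * C / ε ^ 2) := by positivity
    nlinarith [sq_nonneg (ε ^ 2 * L / 8 - 2 * C / ε ^ 2)]
  rw [PP, ← hyd, ← hLd, show y + β.η * r = L - (L - (y + β.η * r)) by ring, gp_eq _ _ hL.ne'] at he
  set a := L - (y + β.η * r) with ha
  have h4 : ε * L ≤ a := by linarith
  have h5 : a ^ 2 / (2 * L) ≤ a := by
    rw [div_le_iff₀ (by positivity)]; nlinarith [mul_pos hε hL]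
  have h6 : ε ^ 2 * L / 2 ≤ a ^ 2 / (2 * L) := by
    rw [div_le_div_iff₀ two_pos (by positivity)]
    nlinarith [pow_le_pow_left₀ (mul_pos hε hL).le h4 2]
  have h7 := mul_le_mul_of_nonneg_right (NN_le_one h.sol x) (sub_nonneg.2 h5)
  linarith [le_abs_self (dd v x)]

end

end Crest.Agent.N067.M.X0
end

-- ▼ part N067/X0/Cont

/-!
# Row 67, block X0 (helper18): first order data of a contact, trichotomy
-/

set_option autoImplicit false

open MeasureTheory Laplacian InnerProductSpace Topology Filter Set Metric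
open scoped RealInnerProductSpace Gradient ContDiff

namespace Crest.Agent.N067.M.X0

open Crest.Agent.R077 Crest.Agent.N067.V

noncomputable section

variable {n : ℕ} {β : Bo} {v : EE n → ℝ} {x z w om p ν : EE n} {r y ρm ε : ℝ}

theorem Rim.tan_pos (h : Rim β ν w om) (hν : ‖ν‖ = 1) : 0 < ‖tan ν w‖ := by
  have h1 := norm_tan_sq hν w
  have h2 := cu1_ge β
  have h3 := (div_pos β.h0 β.η0).trans_le (cu1_lt β)
  rw [h.n1, h.ax] at h1
  refine (norm_nonneg _).lt_of_ne fun h0 => ?_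
  rw [← h0] at h1
  have h4 : 0 < β.η ^ 2 * ((1 - cu1 β) * (1 + cu1 β)) :=
    mul_pos (pow_pos β.η0 2) (mul_pos h3 (by linarith))
  nlinarith

/-- the normal cone on the rim -/
theorem Rim.comb (h : Rim β ν w om) (hc : Cone β ν w om) :
    ∃ a b : ℝ, 0 ≤ a ∧ 0 ≤ b ∧ om = a • w + b • (w + (3 : ℝ) • ν) := by
  have h0 := h.tan_pos hc.ax
  have h1 := norm_tan_sq hc.ax w
  have h2 := norm_tan_sq hc.ax om
  have h3 := cu1_ge β
  have hη := β.η0
  have hg := ga_ge β
  have h4 : tan ν om = (‖tan ν om‖ / ‖tan ν w‖) • tan ν w := by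
    rw [div_eq_inv_mul, mul_smul, ← hc.par, smul_smul, inv_mul_cancel₀ h0.ne', one_smul]
  have h5 : 3 + β.η * cu1 β = ga β * cu0 β := by
    rw [cu1, cu0]; field_simp; ring
  have h6 : ‖tan ν w‖ ^ 2 = ga β ^ 2 - (ga β * cu0 β) ^ 2 := by
    have := norm_add3_sq hc.ax w
    rw [h.n2, h.ax] at this
    rw [h1, ← h5, h.ax, this]; ring
  have hc0 : 0 ≤ ⟪om, ν⟫ := by linarith [h.ge]
  rw [h.n1, h.ax] at h1
  rw [hc.unit] at h2
  set s := ‖tan ν om‖
  set τ := ‖tan ν w‖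
  have hs : 0 ≤ s := norm_nonneg _
  have b1 : s * (β.η * cu1 β) ≤ ⟪om, ν⟫ * τ := by
    rw [← sq_le_sq₀ (mul_nonneg hs (mul_nonneg hη.le (by linarith))) (mul_nonneg hc0 h0.le),
      mul_pow, mul_pow ⟪_, _⟫, h1, h2]
    nlinarith [mul_nonneg (sq_nonneg β.η)
      (sub_nonneg.2 (pow_le_pow_left₀ (by linarith) h.ge 2))]
  have b2 : ⟪om, ν⟫ * τ ≤ s * (ga β * cu0 β) := by
    rw [← sq_le_sq₀ (mul_nonneg hc0 h0.le) (mul_nonneg hs (mul_nonneg (by linarith)
      (hc0.trans h.le))), mul_pow, mul_pow s, h6, h2]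
    nlinarith [mul_nonneg (sq_nonneg (ga β)) (sub_nonneg.2 (pow_le_pow_left₀ hc0 h.le 2))]
  refine ⟨s / τ - (⟪om, ν⟫ - s / τ * (β.η * cu1 β)) / 3, (⟪om, ν⟫ - s / τ * (β.η * cu1 β)) / 3,
    ?_, ?_, ?_⟩
  · have := (le_div_iff₀ h0).2 b2
    rw [← h5, ← div_mul_eq_mul_div] at this
    linarith
  · have := (div_le_iff₀ h0).2 b1
    rw [← div_mul_eq_mul_div] at this
    linarith
  · rw [smul_add, ← add_assoc, ← add_smul, sub_add_cancel, smul_smul, div_mul_cancel₀ _ three_ne_zero]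
    nth_rw 1 [← add_tan ν om]
    rw [h4, tan, h.ax, smul_sub, smul_smul, sub_smul]
    abel

/-- a far contact -/
structure Con (β : Bo) (v : EE n → ℝ) (x : EE n) (r : ℝ) (w om z : EE n) (y : ℝ) : Prop where
  sm : Sm v x r
  fit : Fit β v x r
  cone : Cone β (nu v x) w om
  ypos : 0 < y
  at' : z = cen v x r w + y • om
  ne : z ≠ x
  eq : dd v z = PP β v x r w z
  grad' : nn v z = -(NN v x * (y + β.η * r) / (r - dd v x)) • om
  lap' : √2 * v z * tt v z ≤ NN v x / (r - dd v x) * (1 + n * (y + β.η * r) / y)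

/-- the smooth minorant of `PP` -/
def QQ (β : Bo) (v : EE n → ℝ) (x : EE n) (r : ℝ) (w : EE n) (y : ℝ) (z : EE n) : ℝ :=
  dd v x + gp (NN v x) (r - dd v x) ((‖z - cen v x r w‖ ^ 2 + y ^ 2) / (2 * y) + β.η * r)

theorem QQ_le (hN : 0 ≤ NN v x) (hr : |dd v x| < r) (hy : 0 < y) (w z : EE n) :
    QQ β v x r w y z ≤ PP β v x r w z := by
  refine add_le_add_right (Wd.gp_anti hN (by linarith [le_abs_self (dd v x)])
    (add_nonneg (norm_nonneg _) (mul_nonneg β.η0.le ((abs_nonneg _).trans hr.le))) ?_) _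
  rw [add_le_add_iff_right, le_div_iff₀ (by positivity)]
  nlinarith [sq_nonneg (‖z - cen v x r w‖ - y)]

theorem QQ_eq (hy : 0 < y) (h : ‖z - cen v x r w‖ = y) : QQ β v x r w y z = PP β v x r w z := by
  rw [QQ, PP, h]; congr 3; field_simp; ring

theorem con_of (h : Sm v x r) (hf : Fit β v x r) (hw : w ∈ Core β (nu v x)) (hz : z ≠ x)
    (he : dd v z = PP β v x r w z) (hy : z ≠ cen v x r w) :
    ∃ om, Con β v x r w om z ‖z - cen v x r w‖ := by
  have hy0 : 0 < ‖z - cen v x r w‖ := norm_pos_iff.2 (sub_ne_zero.2 hy)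
  set y := ‖z - cen v x r w‖ with hyd
  set om := y⁻¹ • (z - cen v x r w) with hom
  have h1 : ‖om‖ = 1 := by rw [hom, norm_smul, norm_inv, norm_norm, inv_mul_cancel₀ hy0.ne']
  have h2 : z - cen v x r w = y • om := by rw [hom, smul_smul, mul_inv_cancel₀ hy0.ne', one_smul]
  clear_value om y
  have hL := h.Lpos
  have hN := h.Npos
  have hr : 0 < r := by linarith [h.r8]
  have hm : IsLocalMin (fun z' => dd v z' - QQ β v x r w y z') z := Eventually.of_forall fun z' => by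
    simp only [QQ_eq hy0 hyd.symm, he]
    linarith [QQ_le (β := β) hN.le h.lt hy0 w z', hf w hw z']
  have hF : ∀ s, HasDerivAt (fun s => dd v x + gp (NN v x) (r - dd v x)
      ((s + y ^ 2) / (2 * y) + β.η * r))
      (-(NN v x / (r - dd v x) / (2 * y)) * ((s + y ^ 2) / (2 * y) + β.η * r)) s := fun s => by
    unfold gp
    refine ((((((((hasDerivAt_id s).add_const _).div_const _).add_const _).pow 2).const_sub _
      ).const_mul _).div_const _).const_add _ |>.congr_deriv ?_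
    simp only [id, Nat.cast_ofNat, Nat.add_one_sub_one, pow_one]; field_simp
  have hF2 : HasDerivAt (fun s => -(NN v x / (r - dd v x) / (2 * y)) *
      ((s + y ^ 2) / (2 * y) + β.η * r)) (-(NN v x / (r - dd v x) / (2 * y)) * (1 / (2 * y)))
      (‖z - cen v x r w‖ ^ 2) := ((((hasDerivAt_id _).add_const _).div_const _).add_const _).const_mul _
  have hS : ContDiff ℝ 2 fun z' : EE n => ‖z' - cen v x r w‖ ^ 2 :=
    (contDiff_id.sub contDiff_const).norm_sq ℝ
  have hQ : ContDiff ℝ 2 (QQ β v x r w y) := by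
    unfold QQ gp
    exact contDiff_const.add ((contDiff_const.mul (contDiff_const.sub
      ((((hS.add contDiff_const).div_const _).add contDiff_const).pow 2))).div_const _)
  refine ⟨om, h, hf, ⟨h.ax, hw, h1, fun w' hw' => le_of_forall_pos_le_add fun δ hδ => ?_⟩, hy0,
    by rw [← h2]; abel, hz, he, ext_inner_right ℝ fun a => ?_, ?_⟩
  · obtain ⟨s, a1, a2⟩ := (Eventually.and (Ioo_mem_nhdsGT zero_lt_one) (Ioo_mem_nhdsGT
      (show (0 : ℝ) < δ * (2 * y) / (r * (‖w' - w‖ ^ 2 + 1)) by positivity))).exists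
    have a3 := hf _ ((convex_core β _).add_smul_sub_mem hw hw' ⟨a1.1.le, a1.2.le⟩) z
    have a4 : z - cen v x r (w + s • (w' - w)) = y • om - (r * s) • (w' - w) := by
      rw [← h2, cen, cen, smul_add, smul_smul]; abel
    have a5 : y ≤ ‖y • om - (r * s) • (w' - w)‖ := not_lt.1 fun a5 => by
      rw [he, PP, PP, a4, ← hyd, gp, gp, add_le_add_iff_left, div_le_div_iff_of_pos_right
        (by positivity), mul_le_mul_iff_right₀ hN] at a3
      nlinarith [(h.eta β).1, norm_nonneg (y • om - (r * s) • (w' - w))]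
    have a6 := pow_le_pow_left₀ hy0.le a5 2
    rw [norm_sub_sq_real, real_inner_smul_left, real_inner_smul_right, norm_smul, norm_smul, h1,
      mul_one, mul_pow, Real.norm_eq_abs, Real.norm_eq_abs, sq_abs, sq_abs] at a6
    have a7 := (lt_div_iff₀ (by positivity)).1 a2.2
    have a8 : 0 < r * s := mul_pos hr a1.1
    have a9 : 2 * y * ⟪om, w' - w⟫ ≤ r * s * ‖w' - w‖ ^ 2 :=
      le_of_mul_le_mul_left (by nlinarith) a8
    rw [zero_add]
    exact le_of_mul_le_mul_left (by nlinarith) (show 0 < 2 * y by positivity)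
  · have a1 := hm.hasFDerivAt_eq_zero ((h.sol.dd_diff z).hasFDerivAt.sub
      ((hF _).comp_hasFDerivAt z (((hasFDerivAt_id z).sub_const (cen v x r w)).norm_sq)))
    have a2 := congrArg (fun T : EE n →L[ℝ] ℝ => T a) a1
    simp only [sub_apply, smul_apply, id, h2, ContinuousLinearMap.comp_id, innerSL_apply_apply,
      real_inner_smul_left, norm_smul, h1, zero_apply, smul_eq_mul, nsmul_eq_mul] at a2
    rw [nn, inner_grad, real_inner_smul_left, sub_eq_zero.1 a2, Real.norm_of_nonneg hy0.le]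
    field_simp; ring
  · have a1 := lap_of_min ((c2_of h.sol.dd_sm z).sub hQ.contDiffAt) hm
    rw [lap_sub' (c2_of h.sol.dd_sm z) hQ.contDiffAt, ((deq n v h.sol).2 z).1] at a1
    have a2 := lap_comp hS.contDiffAt (by unfold gp; fun_prop) (Eventually.of_forall hF) hF2
    rw [lap_normSq, gsq_normSq, ← hyd] at a2
    change (Δ (QQ β v x r w y)) z = _ at a2
    rw [a2] at a1
    refine le_of_sub_nonneg (a1.trans_eq ?_)
    field_simp; ring

theorem Con.norm_eq (h : Con β v x r w om z y) : ‖z - cen v x r w‖ = y := by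
  rw [h.at', add_sub_cancel_left, norm_smul, h.cone.unit, mul_one, Real.norm_of_nonneg h.ypos.le]

theorem Con.NN_eq (h : Con β v x r w om z y) :
    NN v z = NN v x * (y + β.η * r) / (r - dd v x) := by
  have := h.sm.Lpos; have := h.sm.Npos; have := h.ypos; have := (h.sm.eta β).1
  rw [NN, h.grad', norm_smul, h.cone.unit, mul_one, norm_neg, Real.norm_of_nonneg (by positivity)]

theorem Con.y_eq (h : Con β v x r w om z y) : y = NN v z / NN v x * (r - dd v x) - β.η * r := by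
  have := h.sm.Lpos; have := h.sm.Npos
  rw [h.NN_eq]; field_simp; ring

theorem Con.pos (h : Con β v x r w om z y) :
    z = cen v x r w + (NN v z / NN v x * (r - dd v x) - β.η * r) • om := h.y_eq ▸ h.at'

theorem Con.grad (h : Con β v x r w om z y) : nn v z = -(NN v z) • om := by rw [h.grad', h.NN_eq]

theorem Con.sig (h : Con β v x r w om z y) (hε : (1 - ε) * (r - dd v x) ≤ y + β.η * r) :
    (1 - ε) * NN v x ≤ NN v z := by
  rw [h.NN_eq, le_div_iff₀ h.sm.Lpos]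
  nlinarith [h.sm.Npos]

theorem Con.lap (h : Con β v x r w om z y) (hε : 3 / 4 * (r - dd v x) ≤ y + β.η * r) :
    v z * tt v z * r ≤ 2 * n + 1 := by
  have hL := h.sm.Lpos
  have h1 := h.sm.L1
  have h2 := h.sm.eta β
  have hr := h.sm.r8
  have hy := h.ypos
  have h3 : (y + β.η * r) / y ≤ 2 := by rw [div_le_iff₀ hy]; linarith
  have h4 : NN v x / (r - dd v x) * (1 + n * (y + β.η * r) / y) ≤ (2 * n + 1) / (r - dd v x) := by
    rw [div_mul_eq_mul_div, mul_div_assoc (n : ℝ)]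
    refine div_le_div_of_nonneg_right ?_ hL.le
    have : (n : ℝ) * ((y + β.η * r) / y) ≤ n * 2 := mul_le_mul_of_nonneg_left h3 n.cast_nonneg
    have h5 : 0 ≤ (n : ℝ) * ((y + β.η * r) / y) := by have := h2.1; positivity
    nlinarith [NN_le_one h.sm.sol x, h.sm.Npos]
  have h5 := (le_div_iff₀ hL).1 (h.lap'.trans h4)
  have h6 : (8 / 7 : ℝ) ≤ √2 := Real.le_sqrt_of_sq_le (by norm_num)
  rcases le_total (v z * tt v z) 0 with h7 | h7
  · have : (0 : ℝ) ≤ n := n.cast_nonneg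
    nlinarith
  · have h8 : r ≤ √2 * (r - dd v x) := by nlinarith
    nlinarith [mul_le_mul_of_nonneg_left h8 h7]

/-- the three kinds of far contacts -/
theorem Con.tri (h : Con β v x r w om z y) :
    (⟪om, nu v x⟫ < cu1 β ∧ w = β.η • om ∧ ‖w + (3 : ℝ) • nu v x‖ < 3 + β.η - β.h) ∨
    (cu0 β < ⟪om, nu v x⟫ ∧ w = (3 + β.η - β.h) • om - (3 : ℝ) • nu v x ∧ ‖w‖ < β.η) ∨
    (Rim β (nu v x) w om ∧ ∃ a b : ℝ, 0 ≤ a ∧ 0 ≤ b ∧ om = a • w + b • (w + (3 : ℝ) • nu v x)) := by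
  have hη := β.η0
  have hg := ga_ge β
  rcases h.cone.tri with h1 | h1 | h1
  · refine Or.inl ⟨h1.1, h1.2, ?_⟩
    have h2 := h1.1
    rw [cu1, lt_div_iff₀ (by positivity)] at h2
    refine lt_of_pow_lt_pow_left₀ 2 (by change 0 ≤ ga β; linarith) ?_
    rw [norm_add3_sq h.sm.ax, h1.2, norm_smul, h.cone.unit, real_inner_smul_left,
      Real.norm_of_nonneg hη.le]
    change _ < ga β ^ 2
    linarith
  · refine Or.inr (Or.inl ⟨h1.1, h1.2, lt_of_pow_lt_pow_left₀ 2 hη.le ?_⟩)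
    have h2 := h1.1
    rw [cu0, div_lt_iff₀ (by positivity)] at h2
    rw [h1.2, norm_sub_sq_real, real_inner_smul_left, real_inner_smul_right, norm_smul, norm_smul,
      h.cone.unit, h.sm.ax, Real.norm_of_nonneg (by linarith : 0 ≤ ga β)]
    norm_num
    linarith
  · exact Or.inr (Or.inr ⟨h1, h1.comb h.cone⟩)

/-- a contact in the closed ball sector is a contact of the paraboloid -/
theorem Con.tay_eq (h : Con β v x r w om z y) (hw : w = β.η • om) :
    z - x - (r - dd v x) • nu v x = (y + β.η * r) • om ∧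
      tay (dd v) (z - x) x = NN v x / (r - dd v x) / 2 * ‖z - x‖ ^ 2 := by
  have h1 : z - x - (r - dd v x) • nu v x = (y + β.η * r) • om := by
    rw [h.at', cen, hw, smul_smul, add_smul, mul_comm r]; abel
  have h2 := PP_sector h.sm.Npos h.sm.lt h.cone.unit (by linarith [h.ypos]) h1
  rw [add_sub_cancel, ← hw, ← h.eq] at h2
  exact ⟨h1, by linarith⟩

theorem Con.far (h : Con β v x r w om z y) (hw : w = β.η • om) :
    Far v (NN v x / (r - dd v x)) (z - x) x := by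
  have hL := h.sm.Lpos
  refine ⟨sub_ne_zero.2 h.ne, (h.tay_eq hw).2, ?_⟩
  rw [add_sub_cancel, sub_eq_iff_eq_add.1 (h.tay_eq hw).1, smul_add, smul_smul, smul_smul,
    div_mul_cancel₀ _ hL.ne', smul_nu h.sm.Npos]
  change nn v z = nn v x - _
  rw [h.grad', neg_smul, div_mul_eq_mul_div]; abel

theorem Sm.psd (h : Sm v x r) (hf : Fit β v x r) (a : EE n) :
    0 ≤ hb (dd v) x a a + NN v x / (r - dd v x) * ‖a‖ ^ 2 :=
  hb_add_nonneg' h.sol.dd_sm (mem_of_superset (closedBall_mem_nhds 0 (half_pos h.Lpos)) fun _ hy =>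
    (h.sec (mem_closedBall_zero_iff.1 hy)).tay_le h.Npos h.lt hf) a

/-- **contacts** -/
theorem contact (n : ℕ) {ε : ℝ} (hε : 0 < ε) (hε1 : ε ≤ 1 / 4) : ∃ M : ℝ, ∀ (β : Bo) (v : EE n → ℝ)
    (ρm : ℝ) (x : EE n), Sm v x (rt β v ρm x) → |dd v x| ≤ ε ^ 2 / 80 * rt β v ρm x →
      M ≤ rt β v ρm x → rt β v ρm x < ρm →
      (∃ e, Deg v (NN v x / (rt β v ρm x - dd v x)) e x) ∨
      ∃ w om z y, Con β v x (rt β v ρm x) w om z y ∧
        (1 - ε) * (rt β v ρm x - dd v x) ≤ y + β.η * rt β v ρm x := by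
  obtain ⟨M, H⟩ := ndc n hε (by linarith)
  refine ⟨M, fun β v ρm x h hd hM hρ => (exists_contact h hρ).imp_right ?_⟩
  rintro ⟨w, hw, z, hz, he⟩
  have hf : Fit β v x (rt β v ρm x) := fit_of_le_rt h.lt le_rfl
  have h1 := H β v x w z _ h hd hM hf hw he
  obtain ⟨om, h2⟩ := con_of h hf hw hz he fun h0 => by
    rw [h0, sub_self, norm_zero] at h1
    nlinarith [(h.eta β).2, h.L1, h.r8]
  exact ⟨w, om, z, _, h2, h1⟩

end

end Crest.Agent.N067.M.X0
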